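import Vale.Agent.P183NK.CS

/-!
Interfaces of the classical block.
-/

namespace Vale.Agent.P183NK

open Vale.Agent.P183A Subgroup

/-- A property of all finite form spaces. -/
def AllFS (P : ∀ (p : ℕ) [Fact p.Prime] (V : Type) [AddCommGroup V] [Module (ZMod p) V],
    FS p V → Prop) : Prop :=
  ∀ (p : ℕ) [Fact p.Prime] (V : Type) [AddCommGroup V] [Module (ZMod p) V] [Finite V] (S : FS p V),
    P p V S

/-- Normal subgroup theorem. -/
def N1 (c : ℕ) : Prop := AllFS fun _ _ _ _ _ S =>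
  ∀ (J : S.NR) (e : S.E) (m : ℕ), S.Simp J e → S.TC J e → S.Deg J e m → c ≤ m →
    S.om J ≤ ⁅S.om J, S.om J⁆ ∧ ∀ X ≤ S.iso J, Nm (S.om J) X →
      (∀ g ∈ X, ∀ x ∈ J, g.1 * x = x * g.1) ∨ S.om J ≤ X

/-- Invariant subrings. -/
def N2 (c : ℕ) : Prop := AllFS fun _ _ _ _ _ S =>
  ∀ (J : S.NR) (e : S.E) (m : ℕ), S.Simp J e → S.TC J e → S.Deg J e m → c ≤ m →
    ∀ R ≤ J, (∀ x ∈ R, S.st x ∈ R) → S.NmR (S.om J) R → R ≤ S.ctr J e ∨ R = J

/-- A symmetric noncentral element has many conjugates. -/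
def FAM (c : ℕ) : Prop := AllFS fun _ _ _ _ _ S =>
  ∀ (J : S.NR) (e : S.E), S.Simp J e → S.TC J e → ∀ x ∈ J, S.st x = x → x ∉ S.ctr J e →
    Set.ncard {z | z ∈ S.ctr J e ∧ S.st z = z} ≤
      c * Set.ncard {y | ∃ g ∈ S.om J, y = g.1 * x * g⁻¹.1}

/-- Full endomorphism rings over scalars: simple, of the right degree, without fixed vectors. -/
def BAS (c : ℕ) : Prop := AllFS fun _ _ _ _ _ S =>
  ∀ (D : S.NR) (e : S.E) (r : ℕ), S.Scal D e → S.Rank D e r →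
    S.Simp (S.cent D e) e ∧ S.ctr (S.cent D e) e = D ∧ S.Deg (S.cent D e) e r ∧
      (c ≤ r → S.TC (S.cent D e) e)

/-- Among three orthogonal blocks of the same rank two are swapped by an isometry. -/
def ISO3 : Prop := AllFS fun _ _ _ _ _ S =>
  ∀ (Z : S.NR), S.Scal Z 1 → ∀ e : Fin 3 → S.E, (∀ i, e i ∈ S.cent Z 1 ∧ S.st (e i) = e i ∧
    e i * e i = e i) → (∀ i j, i ≠ j → e i * e j = 0) →
    (∀ i j, Nat.card (LinearMap.range (e i)) = Nat.card (LinearMap.range (e j))) →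
    ∃ i j, i ≠ j ∧ ∃ t ∈ S.iso (S.cent Z 1), t * t = 1 ∧ t.1 * e i = e j * t.1 ∧
      t.1 * (1 - e i - e j) = 1 - e i - e j

/-- Two commuting central simple factors that are conjugate under a similitude are exchanged by a
unitary involution of the ring they generate. -/
def FLIP : Prop := AllFS fun _ _ _ _ _ S =>
  ∀ (Z J₁ J₂ : S.NR), S.Scal Z 1 → S.Simp J₁ 1 → S.Simp J₂ 1 → S.ctr J₁ 1 = Z → S.ctr J₂ 1 = Z →
    J₂ ≤ S.cent J₁ 1 → (∃ γ ∈ S.gam Z, ∀ x, x ∈ J₁ ↔ γ.1 * x * γ⁻¹.1 ∈ J₂) →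
    ∃ t ∈ J₁ ⊔ J₂, t * t = 1 ∧ S.st t = t ∧ ∀ x, x ∈ J₁ ↔ t * x * t ∈ J₂

/-- The literal classical groups have models. -/
def LIT : Prop := ∀ d : ℕ, ∃ d' : ℕ, ∀ (S : Type) [Group S], IsClassical d' S → HasModel d S

/-- Automorphisms of classical groups of large rank are induced by semilinear similitudes. -/
def LIFTS (d : ℕ) : Prop :=
  ∀ (G : Type) [Group G] [Finite G] (T : Subgroup G) (M : Model T), d < M.n → M.Lifts

namespace FS

variable {p : ℕ} [Fact p.Prime] {V : Type} [AddCommGroup V] [Module (ZMod p) V] (S : FS p V)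

/-- The linear configuration: `b` is a group of similitudes with `E_b = Ω`. -/
structure LC (Z : S.NR) (n : ℕ) (H b : Subgroup S.Eˣ) : Prop where
  scal : S.Scal Z 1
  rank : S.Rank Z 1 n
  gam : b ≤ S.gam Z
  sca : S.sca Z ≤ H
  top : EE H b = S.om (S.cent Z 1)

/-- Only the trivial `Z`-submodules are invariant under `a`. -/
def Irr (Z : S.NR) (a : Subgroup S.Eˣ) : Prop :=
  ∀ U : AddSubgroup V, (∀ z ∈ Z, ∀ v ∈ U, z v ∈ U) → (∀ g ∈ a, ∀ v ∈ U, g.1 v ∈ U) →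
    ∃ z ∈ Z, z * z = z ∧ ∀ v, v ∈ U ↔ z v = v

/-- The commutant of `X` in `A` is `Z`. -/
def Abs (Z : S.NR) (X : Subgroup S.Eˣ) : Prop :=
  ∀ x ∈ S.cent Z 1, (∀ g ∈ X, g.1 * x = x * g.1) → x ∈ Z

/-- `X` spans `A` and preserves no extra quadratic form. -/
def Ful (Z : S.NR) (X : Subgroup S.Eˣ) : Prop :=
  S.spanR X = S.cent Z 1 ∧ (¬ S.orth → (∀ z ∈ Z, S.st z = z) →
    ∀ q' : V → ZMod p, (∀ x y, q' (x + y) = q' x + q' y + S.β x y) →
      ∃ g ∈ X, ∃ v, q' (g.1 v) ≠ q' v)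

/-- Almost simple modulo scalars. -/
def ASL (Z : S.NR) (H a : Subgroup S.Eˣ) : Prop :=
  CC H a ⊓ S.om (S.cent Z 1) ≤ S.sca Z ∧
    ∀ R ≤ EE H a, Nm (EE H a) R → R ≤ S.sca Z ∨ R = EE H a

end FS

/-- A raising step in the linear configuration: from `P` to `Q`. -/
def LStep (P Q : ∀ (p : ℕ) [Fact p.Prime] (V : Type) [AddCommGroup V] [Module (ZMod p) V]
    (S : FS p V), S.NR → Subgroup S.Eˣ → Subgroup S.Eˣ → Prop) : Prop :=
  ∃ d m₀ c : ℕ, AllFS fun p _ V _ _ S =>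
    ∀ (Z : S.NR) (n : ℕ) (H a b : Subgroup S.Eˣ) (m k : ℕ), S.LC Z n H b → d < n → m₀ ≤ m →
      Hairy H a b → Good m (k + c) a b → P p V S Z H a →
      ∃ a', a ≤ a' ∧ Good m k a' b ∧ Q p V S Z H a'

/-- Irreducibility. -/
def W12 : Prop := LStep (fun _ _ _ _ _ _ _ _ _ => True) fun _ _ _ _ _ S Z _ a => S.Irr Z a

/-- Absolute irreducibility of `E_a`. -/
def W3 : Prop := LStep (fun _ _ _ _ _ S Z _ a => S.Irr Z a) fun _ _ _ _ _ S Z H a => S.Abs Z (EE H a)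

/-- No subfield and no extra form. -/
def W4 : Prop := LStep (fun _ _ _ _ _ S Z H a => S.Irr Z a ∧ S.Abs Z (EE H a))
  fun _ _ _ _ _ S Z H a => S.Ful Z (EE H a)

/-- Almost simplicity. -/
def W5 : Prop := LStep (fun _ _ _ _ _ S Z H a => S.Irr Z a ∧ S.Ful Z (EE H a))
  fun _ _ _ _ _ S Z H a => S.ASL Z H a

/-- Genericity for classical tops of characteristic `p`. -/
def GenClP (d p : ℕ) : GenT := fun _ _ H a z =>
  ∃ M : Model (EE H z), d < M.n ∧ M.p = p ∧ M.Full (EE H a)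

/-- The final step in one characteristic. -/
def SameChar : Prop := ∃ d m j : ℕ, 0 < m ∧ ∀ p, FThm (fun _ _ => True) (GenClP d p) m j

/-- Reduction to one characteristic. -/
def Cross : Prop := ∃ d₀ : ℕ, ∀ d m j : ℕ, d₀ ≤ d → 0 < m →
  (∀ p, FThm (fun _ _ => True) (GenClP d p) m j) → ∃ j', FThm (fun _ _ => True) (GenCl d) m j'

/-- The width step and the Schreier property, from the linear steps. -/
def WCl : Prop := W12 → W3 → W4 → W5 → (∃ d, LIFTS d) → ∃ d₀ : ℕ, ∀ d, d₀ ≤ d →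
  Schreier (HasModel d) ∧ ∃ m₀ c, WStep (HasModel d) (GenCl d) m₀ c

end Vale.Agent.P183NK
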