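import Mathlib.GroupTheory.SpecificGroups.Alternating
import Mathlib.GroupTheory.Solvable
import Mathlib.GroupTheory.PGroup
import Mathlib.LinearAlgebra.Matrix.GeneralLinearGroup.Defs
import Mathlib.LinearAlgebra.QuadraticForm.Basic
import Mathlib.LinearAlgebra.SymplecticGroup
import Mathlib.FieldTheory.IsAlgClosed.AlgebraicClosure
import Mathlib.Algebra.Field.ZMod

/-!
The known finite simple groups: the classes in the main theorem.
-/

namespace Vale.Agent.P183NK

open Matrix Subgroup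

/-- `S` is a section of `G`: a homomorphic image of a subgroup of `G`. -/
def IsSection (S G : Type) [Group S] [Group G] : Prop :=
  ∃ (A : Subgroup G) (f : A →* S), Function.Surjective f

/-- `S` is isomorphic to `G' / Z(G')`, where `G'` is the commutator subgroup of `G`. -/
def DerZ (G S : Type) [Group G] [Group S] : Prop :=
  Nonempty (S ≃* (commutator G ⧸ center (commutator G)))

/-- `S` is an alternating group. -/
def IsAlt (S : Type) [Group S] : Prop := ∃ n : ℕ, Nonempty (S ≃* alternatingGroup (Fin n))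

/-- The general unitary group: the matrices `A` with `(σ A)ᵀ A = 1` (they form a group; `closure`
only names it). -/
def GU (n : ℕ) {F : Type} [Field F] (σ : F ≃+* F) : Subgroup (GL (Fin n) F) :=
  closure {A | (A.1.map σ)ᵀ * A.1 = 1}

/-- The orthogonal group: the isometries of a quadratic form on `F ^ n` (they form a group;
`closure` only names it). -/
def GO {n : ℕ} {F : Type} [Field F] (Q : QuadraticForm F (Fin n → F)) : Subgroup (GL (Fin n) F) :=
  closure {g | ∀ v, Q (g.1 *ᵥ v) = Q v}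

/-- `S` is a classical group of dimension `n > d` over a finite field: `G' / Z(G')` for
`G = GL_n(F)`, `Sp_n(F)`, `GU_n(F)` or `O(Q)`, where `Q` is a quadratic form on `F ^ n` whose
polar form is nondegenerate. -/
def IsClassical (d : ℕ) (S : Type) [Group S] : Prop :=
  ∃ (F : Type) (_ : Field F) (_ : Finite F) (n : ℕ), d < n ∧
    (DerZ (GL (Fin n) F) S ∨
    (∃ m : ℕ, n = 2 * m ∧ DerZ (symplecticGroup (Fin m) F) S) ∨
    (∃ σ : F ≃+* F, (∀ x, σ (σ x) = x) ∧ (∃ x, σ x ≠ x) ∧ DerZ (GU n σ) S) ∨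
    ∃ Q : QuadraticForm F (Fin n → F), (∀ v, (∀ w, QuadraticMap.polar Q v w = 0) → v = 0) ∧
      DerZ (GO Q) S)

section
variable {L : Type} [Group L]

/-- `x` lies in the double coset `B n B`. -/
def DC (B : Subgroup L) (n x : L) : Prop := ∃ a ∈ B, ∃ b ∈ B, x = a * n * b

/-- A split BN-pair of characteristic `p` of the group `L`, with abelian torus `B ∩ N`; `R` is a set
of representatives of the simple reflections, and `B = U (B ∩ N)` with `U` a normal `p`-subgroup. -/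
structure SplitBN (p : ℕ) (B N U : Subgroup L) (R : Set L) : Prop where
  norm : ∀ n ∈ N, ∀ t ∈ B, t ∈ N → n * t * n⁻¹ ∈ B
  sub : ∀ s ∈ R, s ∈ N
  span : N = closure R ⊔ (B ⊓ N)
  sq : ∀ s ∈ R, s * s ∈ B
  mul : ∀ s ∈ R, ∀ b ∈ B, ∀ n ∈ N, DC B n (s * b * n) ∨ DC B (s * n) (s * b * n)
  thick : ∀ s ∈ R, ∃ b ∈ B, s⁻¹ * b * s ∉ B
  gen : B ⊔ N = ⊤
  le : U ≤ B
  pgroup : IsPGroup p U
  normal : ∀ b ∈ B, ∀ u ∈ U, b * u * b⁻¹ ∈ U
  split : ∀ b ∈ B, ∃ u ∈ U, ∃ t ∈ B, t ∈ N ∧ b = u * t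
  coprime : ¬ p ∣ Nat.card (B ⊓ N : Subgroup L)
  strong : ∀ s ∈ R, ∀ x ∈ U, s * x * s⁻¹ ∈ U → ∀ u ∈ U, s * (u * x * u⁻¹) * s⁻¹ ∈ U
  opp : ∃ n ∈ N, ∀ x ∈ U, n * x * n⁻¹ ∈ U → x = 1
  comm : ∀ x ∈ B, x ∈ N → ∀ y ∈ B, y ∈ N → x * y = y * x

end

/-- `S` is of Lie type with bound `c`, over a field with `q = p ^ f` elements. It has a split BN-pair
of characteristic `p` with torus `T = B ∩ N`, such that: the Weyl group has order at most `c`;
`N` is the normaliser of `T`; the exponent of `T` divides `q ^ e - 1` for some `e ≤ c`; for each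
simple reflection `s` the elements of `T` inverted by `s` have a cyclic subgroup of index at most
`c`, whose order times some `j ≤ c` is a multiple of `q - 1`; some nontrivial abelian subgroup `A`
of `U` is a minimal `T`-invariant subgroup with `q - 1 ≤ c |T : C_T(A)|`; there is an
irreducible representation of degree at most `c` over the algebraic closure of `𝔽_p` in which `B` is
the stabiliser of a line; and the outer automorphism group is solvable. -/
def IsLie (c : ℕ) (S : Type) [Group S] : Prop :=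
  ∃ (p f : ℕ) (_ : Fact p.Prime) (B N U : Subgroup S) (R : Set S), 0 < f ∧ SplitBN p B N U R ∧
    B.relIndex N ≤ c ∧ normalizer ((B ⊓ N : Subgroup S) : Set S) = N ∧
    (∃ e, 0 < e ∧ e ≤ c ∧ ∀ t ∈ B ⊓ N, t ^ ((p ^ f) ^ e - 1) = 1) ∧
    (∀ s ∈ R, ∃ t ∈ B ⊓ N, s * t * s⁻¹ = t⁻¹ ∧
      (∃ j, 0 < j ∧ j ≤ c ∧ p ^ f - 1 ∣ j * orderOf t) ∧
      Set.ncard {x | x ∈ B ⊓ N ∧ s * x * s⁻¹ = x⁻¹} ≤ c * orderOf t) ∧
    (∃ A : Subgroup S, A ≤ U ∧ A ≠ ⊥ ∧ (∀ x ∈ A, ∀ y ∈ A, x * y = y * x) ∧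
      (∀ t ∈ B ⊓ N, ∀ x ∈ A, t * x * t⁻¹ ∈ A) ∧
      (∀ A' ≤ A, (∀ t ∈ B ⊓ N, ∀ x ∈ A', t * x * t⁻¹ ∈ A') → A' = ⊥ ∨ A' = A) ∧
      p ^ f - 1 ≤ c * (centralizer (A : Set S)).relIndex (B ⊓ N)) ∧
    (∃ (n : ℕ) (ρ : S →* GL (Fin n) (AlgebraicClosure (ZMod p)))
      (v : Fin n → AlgebraicClosure (ZMod p)), n ≤ c ∧ v ≠ 0 ∧
      (∀ W : Submodule (AlgebraicClosure (ZMod p)) (Fin n → AlgebraicClosure (ZMod p)),
        (∀ g, ∀ w ∈ W, (ρ g).1 *ᵥ w ∈ W) → W = ⊥ ∨ W = ⊤) ∧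
      ∀ g, g ∈ B ↔ ∃ a : AlgebraicClosure (ZMod p), (ρ g).1 *ᵥ v = a • v) ∧
    ∀ _ : (MulAut.conj : S →* MulAut S).range.Normal,
      Group.IsSolvable (MulAut S ⧸ (MulAut.conj : S →* MulAut S).range)

/-- The known simple groups: order at most `c`, alternating, classical of dimension `> d`, or of Lie
type with bound `c`. -/
def Known (d c : ℕ) (S : Type) [Group S] : Prop :=
  Nat.card S ≤ c ∨ IsAlt S ∨ IsClassical d S ∨ IsLie c S

/-- All nonabelian simple sections of `G` are known. -/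
def KGroup (d c : ℕ) (G : Type) [Group G] : Prop :=
  ∀ (S : Type) [Group S], IsSimpleGroup S → (∃ a b : S, a * b ≠ b * a) → IsSection S G →
    Known d c S

end Vale.Agent.P183NK
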