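import Vale.Agent.P183NK.Ord
import Vale.Agent.P183NK.Defs
import Vale.Agent.P183A.Setup

/-!
Nodes of an interval `[H, G]`, and the interfaces of the blocks.
-/

namespace Vale.Agent.P183NK

open Vale.Agent.P183A Subgroup

section
variable {G : Type} [Group G]

/-- The intersection of the normal subgroups of `K` that are not contained in `H`. -/
def EE (H K : Subgroup G) : Subgroup G := sInf {R | R ≤ K ∧ Nm K R ∧ ¬ R ≤ H}

/-- The core of `H` in `K`. -/
def CC (H K : Subgroup G) : Subgroup G := sSup {R | R ≤ H ∧ Nm K R}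

/-- The node `K` is almost simple relative to `T`. -/
def AS (H T K : Subgroup G) : Prop :=
  IsSimpleGroup (EE H K) ∧ centralizer (EE H K : Set G) ⊓ T = ⊥

/-- A region of almost simple nodes. -/
def Reg (H T x b : Subgroup G) : Prop :=
  Hairy H x b ∧ EE H b ≤ T ∧ Nm b T ∧ ∀ u, x ≤ u → u ≤ b → AS H T u

end

/-- A family of finite groups. -/
abbrev Fam : Type 1 := ∀ (S : Type) [Group S], Prop

/-- A genericity relation `Gen H a z`. -/
abbrev GenT : Type 1 := ∀ (G : Type) [Group G], Subgroup G → Subgroup G → Subgroup G → Prop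

/-- Width step: below a node `z` whose socle is a simple group of the family `Φ` the base can be
raised to a generic almost simple node. -/
def WStep (Φ : Fam) (Gen : GenT) (m₀ c : ℕ) : Prop :=
  ∀ (G : Type) [Group G] [Finite G] (H a z : Subgroup G) (m k : ℕ), m₀ ≤ m → Hairy H a z →
    Good m (k + c) a z → IsSimpleGroup (EE H z) → Φ (EE H z) →
    ∃ a', a ≤ a' ∧ Good m k a' z ∧ Gen G H a' z ∧ AS H (EE H z) a'

/-- Final step: no deep monochromatic tree in an almost simple region. -/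
def FThm (Φ : Fam) (Gen : GenT) (m j : ℕ) : Prop :=
  ∀ (G : Type) [Group G] [Finite G] (H T x b : Subgroup G), Reg H T x b →
    ¬ MT m (fun u z => Φ (EE H z) ∧ Gen G H u z) j x b

/-- The Schreier property for the family `Φ`. -/
def Schreier (Φ : Fam) : Prop :=
  ∀ (G : Type) [Group G] [Finite G] (T : Subgroup G) [T.Normal], IsSimpleGroup T →
    centralizer (T : Set G) = ⊥ → Φ T → Group.IsSolvable (G ⧸ T)

/-- Everything that is needed for the family `Φ`. -/
def Block (Φ : Fam) : Prop :=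
  Schreier Φ ∧ ∃ (Gen : GenT) (m₀ c m j : ℕ), 0 < m ∧ WStep Φ Gen m₀ c ∧ FThm Φ Gen m j

/-- Block A. -/
def BlockAlt : Prop := ∃ n₀ : ℕ, Block fun S _ => IsAlt S ∧ n₀ < Nat.card S

/-- Block B. -/
def BlockLie : Prop := ∀ c : ℕ, ∃ n₀ : ℕ, Block fun S _ => IsLie c S ∧ n₀ < Nat.card S

/-- Block C. -/
def BlockCl : Prop := ∃ d : ℕ, Block fun S _ => IsClassical d S

/-- `L` is an interval in a finite group all of whose nonabelian simple sections satisfy `Φ`. -/
def GIK (Φ : Fam) (L : Type) [LE L] : Prop :=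
  ∃ (G : Type) (_ : Group G) (_ : Finite G) (H : Subgroup G),
    (∀ (S : Type) [Group S], IsSimpleGroup S → (∃ a b : S, a * b ≠ b * a) → IsSection S G → Φ S) ∧
    Nonempty (L ≃o {K : Subgroup G // H ≤ K})

/-- As `ASI`, for a group all of whose nonabelian simple sections satisfy `Φ`. -/
def ASIK (Φ : Fam) (L : Type) [LE L] : Prop :=
  ∃ (G : Type) (_ : Group G) (_ : Finite G) (T H : Subgroup G) (_ : T.Normal),
    (∀ (S : Type) [Group S], IsSimpleGroup S → (∃ a b : S, a * b ≠ b * a) → IsSection S G → Φ S) ∧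
    IsSimpleGroup T ∧ (∃ a ∈ T, ∃ b ∈ T, a * b ≠ b * a) ∧
    centralizer (T : Set G) = ⊥ ∧
    (H ⊔ T = ⊤ ∨ (T ≤ H ∧ ¬ Group.IsSolvable (G ⧸ T))) ∧
    Nonempty (L ≃o {K : Subgroup G // H ≤ K})

/-- Block T: the reduction to almost simple groups keeps track of the simple sections. -/
def Track : Prop :=
  ∀ (Λ : Type) [Lattice Λ] [Finite Λ] [Nonempty Λ],
    ∃ (K : Type) (_ : Lattice K) (_ : BoundedOrder K) (_ : Finite K), NoMod (⊥ : K) ⊤ ∧
      ∀ Φ : Fam, GIK Φ K → ASIK Φ Λ

/-- Block K: almost simplicity propagates upwards. -/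
def KeyUp : Prop :=
  ∀ (G : Type) [Group G] [Finite G] (H T x b : Subgroup G), Hairy H x b → EE H b ≤ T → Nm b T →
    AS H T x → Reg H T x b

/-- Block S: small socles bound the depth. -/
def SmallTop : Prop :=
  ∀ n : ℕ, ∃ c : ℕ, ∀ (G : Type) [Group G] [Finite G] (H a z : Subgroup G) (m k : ℕ), 0 < m →
    Hairy H a z → IsSimpleGroup (EE H z) → Nat.card (EE H z) ≤ n → ¬ Good m (k + c) a z

end Vale.Agent.P183NK
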