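import Vale.Agent.P183A.Basic

/-!
The lattice configurations.
-/

namespace Vale.Agent.P183NK

open Vale.Agent.P183A

variable {L : Type} [Lattice L]

/-- `[a, b]` is a horizontal sum of arms; `c` is the arm colouring of the open interval. -/
def HS {ι : Type} (a b : L) (c : L → ι) : Prop :=
  ∀ u v, a < u → u < b → a < v → v < b → c u ≠ c v → u ⊓ v = a ∧ u ⊔ v = b

/-- Iterated horizontal sums with `m` arms and depth `k`. -/
def Good (m : ℕ) : ℕ → L → L → Prop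
  | 0, a, b => a < b
  | k + 1, a, b => ∃ (c : L → Fin m) (z : Fin m → L), a < b ∧ HS a b c ∧
      ∀ i, c (z i) = i ∧ Good m k a (z i) ∧ Good m k (z i) b

/-- Every `y ∈ [a, b]` has `[o, y]` without modular elements, and has a hair. -/
def Hairy (o a b : L) : Prop :=
  o ≤ a ∧ ∀ y, a ≤ y → y ≤ b → NoMod o y ∧
    ∃ z, o < z ∧ z < y ∧ ∀ u, z ≤ u → u ≤ b → u ≤ y ∨ y ≤ u

/-- Monochromatic trees: the chosen nodes `z` come with bases `u` such that `P u z`. -/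
def MT (m : ℕ) (P : L → L → Prop) : ℕ → L → L → Prop
  | 0, a, b => a < b
  | j + 1, a, b => ∃ (a' b' : L) (c : L → Fin m) (z u : Fin m → L), a ≤ a' ∧ a' < b' ∧ b' ≤ b ∧
      HS a' b' c ∧ ∀ i, c (z i) = i ∧ a' ≤ u i ∧ P (u i) (z i) ∧ MT m P j (u i) (z i) ∧
        MT m P j (z i) b'

/-- Iterated configurations all of whose cut nodes satisfy `C`. -/
def GoodC (C : L → Prop) (m : ℕ) : ℕ → L → L → Prop
  | 0, a, b => a < b
  | k + 1, a, b => ∃ z : Fin m → L, (∀ i, C (z i) ∧ GoodC C m k a (z i) ∧ GoodC C m k (z i) b) ∧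
      ∀ i j, i ≠ j → z i ⊔ z j = b ∧ ∀ v w, z i ≤ v → v < b → z j ≤ w → w < b → v ⊓ w ≤ a

/-- Block L: the lattice exists. -/
def LatticeEx : Prop :=
  ∀ m k : ℕ, 0 < m → ∃ (Λ : Type) (_ : Lattice Λ) (_ : BoundedOrder Λ) (_ : Finite Λ) (a : Λ),
    Hairy ⊥ a ⊤ ∧ Good m k a ⊤

/-- Block R1: either a tree of nodes with generic bases, or a configuration all of whose cut nodes
satisfy `C`. -/
def ToMT : Prop :=
  ∀ j c : ℕ, ∃ K : ℕ, ∀ m : ℕ, 0 < m → ∀ (L : Type) [Lattice L] (C : L → Prop) (P : L → L → Prop)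
    (x b : L), (∀ a z k, x ≤ a → z ≤ b → Good m (k + c) a z →
      C z ∨ ∃ a', a ≤ a' ∧ Good m k a' z ∧ P a' z) →
    Good m K x b → MT m P j x b ∨ ∃ a y, x ≤ a ∧ y ≤ b ∧ C y ∧ GoodC C m j a y

/-- Block R2: the Ramsey lemma for trees. -/
def MTRamsey : Prop :=
  ∀ m j r : ℕ, 0 < m → ∃ M K : ℕ, ∀ (L : Type) [Lattice L] (P : Fin r → L → L → Prop) (a b : L),
    MT M (fun u z => ∃ F, P F u z) K a b → ∃ F, MT m (P F) j a b

end Vale.Agent.P183NK
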