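import Vale.Agent.P183NK.Node
import Mathlib.LinearAlgebra.BilinearForm.Basic
import Mathlib.Algebra.Ring.Subring.Basic
import Mathlib.RingTheory.NonUnitalSubring.Basic

/-!
Classical spaces over the prime field: one framework for linear, unitary, symplectic and orthogonal
groups. For type `A` the space is `V ⊕ V*` and the ring of scalars is `F × F`.
-/

namespace Vale.Agent.P183NK

open Subgroup

/-- A form space over `𝔽_p`: a nondegenerate form `β`, with adjoint involution `st`, and either a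
quadratic form `q` with polar form `β` (`orth`), or `q = 0` and `β` alternating. -/
structure FS (p : ℕ) [Fact p.Prime] (V : Type) [AddCommGroup V] [Module (ZMod p) V] where
  β : LinearMap.BilinForm (ZMod p) V
  q : V → ZMod p
  orth : Prop
  st : Module.End (ZMod p) V → Module.End (ZMod p) V
  st_spec : ∀ a x y, β (a x) y = β x (st a y)
  nondeg : ∀ x, (∀ y, β x y = 0) → x = 0
  q_add : orth → ∀ x y, q (x + y) = q x + q y + β x y
  q_smul : ∀ (c : ZMod p) x, q (c • x) = c * c * q x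
  alt : ¬ orth → ∀ x, q x = 0 ∧ β x x = 0

namespace FS

variable {p : ℕ} [Fact p.Prime] {V : Type} [AddCommGroup V] [Module (ZMod p) V] (S : FS p V)

/-- The endomorphism ring. -/
abbrev E (_S : FS p V) : Type := Module.End (ZMod p) V

/-- Non-unital subrings of the endomorphism ring. -/
abbrev NR : Type := NonUnitalSubring S.E

/-- `J` is closed under the involution and has the symmetric idempotent `e ≠ 0` as its identity. -/
structure Loc (J : S.NR) (e : S.E) : Prop where
  mem : e ∈ J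
  ne : e ≠ 0
  symm : S.st e = e
  left : ∀ x ∈ J, e * x = x
  right : ∀ x ∈ J, x * e = x
  star : ∀ x ∈ J, S.st x ∈ J

/-- A ring of scalars on `e V`: commutative, reduced, the symmetric elements form a field, and `q` is
compatible. -/
structure Scal (D : S.NR) (e : S.E) : Prop extends S.Loc D e where
  comm : ∀ x ∈ D, ∀ y ∈ D, x * y = y * x
  red : ∀ x ∈ D, x * x = 0 → x = 0
  inv : ∀ x ∈ D, S.st x = x → x ≠ 0 → ∃ y ∈ D, x * y = e
  compat : ∀ x ∈ D, ∀ y ∈ D, x * S.st x = y * S.st y → ∀ v, S.q (x v) = S.q (y v)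

/-- The centraliser of `J` in `e E e`. -/
def cent (J : S.NR) (e : S.E) : S.NR where
  carrier := {x | e * x = x ∧ x * e = x ∧ ∀ d ∈ J, x * d = d * x}
  add_mem' := fun {a b} ha hb => ⟨by rw [mul_add, ha.1, hb.1], by rw [add_mul, ha.2.1, hb.2.1],
    fun d hd => by rw [add_mul, mul_add, ha.2.2 d hd, hb.2.2 d hd]⟩
  zero_mem' := ⟨mul_zero _, zero_mul _, fun d _ => by rw [zero_mul, mul_zero]⟩
  mul_mem' := fun {a b} ha hb => ⟨by rw [← mul_assoc, ha.1], by rw [mul_assoc, hb.2.1],
    fun d hd => by rw [mul_assoc, hb.2.2 d hd, ← mul_assoc, ha.2.2 d hd, mul_assoc]⟩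
  neg_mem' := fun {a} ha => ⟨by rw [mul_neg, ha.1], by rw [neg_mul, ha.2.1],
    fun d hd => by rw [neg_mul, mul_neg, ha.2.2 d hd]⟩

/-- The centre of `J`. -/
def ctr (J : S.NR) (e : S.E) : S.NR := J ⊓ S.cent J e

/-- `J` is simple as a ring with involution. -/
structure Simp (J : S.NR) (e : S.E) : Prop extends S.Loc J e where
  simple : ∀ R : S.NR, R ≤ J → (∀ x ∈ R, S.st x ∈ R) → (∀ x ∈ R, ∀ y ∈ J, x * y ∈ R ∧ y * x ∈ R) →
    R = ⊥ ∨ R = J

/-- `J` has degree `m` over its centre. -/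
def Deg (J : S.NR) (e : S.E) (m : ℕ) : Prop := Nat.card J = Nat.card (S.ctr J e) ^ (m * m)

/-- `e V` has rank `r` over `D`. -/
def Rank (D : S.NR) (e : S.E) (r : ℕ) : Prop := Nat.card (LinearMap.range e) = Nat.card D ^ r

/-- The isometries `g` with `g - 1 ∈ J` (a group when `J` is closed under the involution; see
`mem_iso` in the basic file). -/
def iso (J : S.NR) : Subgroup S.Eˣ :=
  closure {g | g.1 - 1 ∈ J ∧ S.st g.1 * g.1 = 1 ∧ ∀ v, S.q (g.1 v) = S.q v}

/-- The derived group of `iso J`. -/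
def om (J : S.NR) : Subgroup S.Eˣ := ⁅S.iso J, S.iso J⁆

/-- `iso J` has no nonzero fixed vector on `e V`. -/
def TC (J : S.NR) (e : S.E) : Prop := ∀ v, e v = v → (∀ g ∈ S.iso J, g.1 v = v) → v = 0

/-- `X` normalises `J`. -/
def NmR (X : Subgroup S.Eˣ) (J : S.NR) : Prop := ∀ g ∈ X, ∀ x ∈ J, g.1 * x * g⁻¹.1 ∈ J

/-- The semilinear similitudes for the ring of scalars `Z` (a group; see `mem_gam`). -/
def gam (Z : S.NR) : Subgroup S.Eˣ :=
  closure {g | (∀ z ∈ Z, g.1 * z * g⁻¹.1 ∈ Z) ∧ S.st g.1 * g.1 ∈ Z ∧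
    (fun v => S.q (g.1 v)) ∈ Submodule.span (ZMod p) {f : V → ZMod p | ∃ z ∈ Z, f = fun v => S.q (z v)}}

/-- The units of `Z` (for `e = 1`). -/
def sca (Z : S.NR) : Subgroup S.Eˣ := closure {g | g.1 ∈ Z}

/-- The subring generated by a group. -/
def spanR (X : Subgroup S.Eˣ) : S.NR := NonUnitalSubring.closure {x | ∃ g ∈ X, x = g.1}

/-- A singular vector for the scalars `D`. -/
def Sing (D : S.NR) (v : V) : Prop := ∀ z ∈ D, S.q (z v) = 0 ∧ S.β (z v) v = 0

end FS

/-- A classical model of rank `n` of the subgroup `T` of `G`. -/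
structure Model {G : Type} [Group G] (T : Subgroup G) where
  p : ℕ
  [hp : Fact p.Prime]
  V : Type
  [acg : AddCommGroup V]
  [mod : Module (ZMod p) V]
  [fin : Finite V]
  S : FS p V
  Z : S.NR
  scal : S.Scal Z 1
  n : ℕ
  rank : S.Rank Z 1 n
  θ : S.om (S.cent Z 1) →* G
  range : θ.range = T
  ker : ∀ g, θ g = 1 ↔ g.1.1 ∈ Z

attribute [instance] Model.hp Model.acg Model.mod Model.fin

namespace Model

variable {G : Type} [Group G] {T : Subgroup G} (M : Model T)

/-- The algebra `A = End_Z V`. -/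
abbrev A : M.S.NR := M.S.cent M.Z 1

/-- The group `Ω`. -/
abbrev Ω : Subgroup M.S.Eˣ := M.S.om M.A

/-- The derived group of the preimage of `X` in `Ω`. -/
def hat (X : Subgroup G) : Subgroup M.S.Eˣ :=
  ⁅(X.comap M.θ).map M.Ω.subtype, (X.comap M.θ).map M.Ω.subtype⁆

/-- `X` is generic in the model: its preimage spans `A` over the prime field, and in the symplectic
case preserves no quadratic form with polar form `β`. -/
def Full (X : Subgroup G) : Prop :=
  M.S.spanR (M.hat X) = M.A ∧ (¬ M.S.orth → (∀ z ∈ M.Z, M.S.st z = z) →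
    ∀ q' : M.V → ZMod M.p, (∀ x y, q' (x + y) = q' x + q' y + M.S.β x y) →
      ∃ g ∈ M.hat X, ∃ v, q' (g.1 v) ≠ q' v)

/-- Every automorphism of `T` induced by `G` comes from a semilinear similitude. -/
def Lifts : Prop :=
  ∀ g : G, (∀ t ∈ T, g * t * g⁻¹ ∈ T) → ∃ γ ∈ M.S.gam M.Z, ∀ (ω ω' : M.Ω),
    ω'.1 = γ * ω.1 * γ⁻¹ → M.θ ω' = g * M.θ ω * g⁻¹

end Model

/-- The family of groups with a classical model of rank `> d`. -/
def HasModel (d : ℕ) : Fam := fun S _ => ∃ M : Model (⊤ : Subgroup S), d < M.n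

/-- Genericity for classical tops. -/
def GenCl (d : ℕ) : GenT := fun _ _ H a z => ∃ M : Model (EE H z), d < M.n ∧ M.Full (EE H a)

end Vale.Agent.P183NK
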